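import Vale.Agent.P281.H383.KN.ImgN
import Vale.Agent.P281.H64.TK.SpecN

/-! P281, project T-KN, blocks KN0 and KN0' (helper383). -/

namespace Vale.Agent.P281.H383.KN

/-- **KN0** -/
theorem genN : H64.TK.GenNStmt := fun p d X Y => genN' p d X Y

/-- **KN0'** -/
theorem imgN : H64.TK.ImgNStmt := fun p Y Y₁ => imgN' p Y Y₁

end Vale.Agent.P281.H383.KN
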