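import Vale.Agent.P281.H383.KN.Loc
import Vale.Agent.P281.H737.Gen.Crit

/-! P281, project T-KN, block KN0 (helper383): the general fibres meet a small set of codimension two
in a small set of codimension two. -/

open Set Filter Metric Vale.Agent.P281 Vale.Agent.P281.J Vale.Agent.P281.H713
open Vale.Agent.P281.H64.Thin (IsThinSet)
open Vale.Agent.P281.H64 (Cm)
open Vale.Agent.P281.H64.Gen (IsSmallSet IsSmall2)
open Vale.Agent.P281.H150.Gen
open scoped Topology ContDiff Manifold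

set_option linter.unusedSectionVars false

noncomputable section

namespace Vale.Agent.P281.H383.KN

section

variable {n p : ℕ} {X Y : Type} [TopologicalSpace X] [T2Space X] [ChartedSpace (Cm n) X]
  [IsManifold 𝓘(ℂ, Cm n) ω X] [TopologicalSpace Y] [T2Space Y] [ChartedSpace (Cm p) Y]
  [IsManifold 𝓘(ℂ, Cm p) ω Y]

theorem holAt_eventually {g : X → ℂ} {x : X} (h : HolAt (Cm n) g x) :
    ∀ᶠ z in 𝓝 x, HolAt (Cm n) g z := by
  exact (contMDiffAt_iff_contMDiffAt_nhds (n := ω) (by simp)).1 h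

theorem analytic_symm {g : X → ℂ} {x : X} {v : Cm n} (hv : v ∈ (chartAt (Cm n) x).target)
    (h : HolAt (Cm n) g ((chartAt (Cm n) x).symm v)) :
    AnalyticAt ℂ (fun v => g ((chartAt (Cm n) x).symm v)) v := by
  have h1 : ContMDiffAt 𝓘(ℂ, Cm n) 𝓘(ℂ, ℂ) ω (fun v => g ((chartAt (Cm n) x).symm v)) v :=
    ContMDiffAt.comp v h (holAt_symm hv)
  exact (contMDiffAt_iff_contDiffAt.1 h1).analyticAt

theorem fderiv_symm {g : X → ℂ} {x : X} {v : Cm n} (hv : v ∈ (chartAt (Cm n) x).target)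
    (h : HolAt (Cm n) g ((chartAt (Cm n) x).symm v)) (ξ : Cm n) :
    fderiv ℂ (fun v => g ((chartAt (Cm n) x).symm v)) v ξ =
      dif (Cm n) g ((chartAt (Cm n) x).symm v)
        (mfderiv 𝓘(ℂ, Cm n) 𝓘(ℂ, Cm n) (chartAt (Cm n) x).symm v ξ) := by
  have hn : (ω : WithTop ℕ∞) ≠ 0 := by simp
  have h3 : mfderiv 𝓘(ℂ, Cm n) 𝓘(ℂ, ℂ) (fun v => g ((chartAt (Cm n) x).symm v)) v =
      (mfderiv 𝓘(ℂ, Cm n) 𝓘(ℂ, ℂ) g ((chartAt (Cm n) x).symm v)).comp
        (mfderiv 𝓘(ℂ, Cm n) 𝓘(ℂ, Cm n) (chartAt (Cm n) x).symm v) :=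
    mfderiv_comp v (ContMDiffAt.mdifferentiableAt h hn)
      ((holAt_symm (y₀ := x) hv).mdifferentiableAt hn)
  rw [← mfderiv_eq_fderiv, h3]
  rfl

/-- The differential of a map. -/
def md (n p : ℕ) {X Y : Type} [TopologicalSpace X] [ChartedSpace (Cm n) X]
    [TopologicalSpace Y] [ChartedSpace (Cm p) Y] (f : X → Y) (x : X) : Cm n →L[ℂ] Cm p :=
  mfderiv 𝓘(ℂ, Cm n) 𝓘(ℂ, Cm p) f x

/-- The points of `H` at which no equations of codimension two of `H` are independent of `f`. -/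
def critSet (n p : ℕ) {X Y : Type} [TopologicalSpace X] [ChartedSpace (Cm n) X]
    [TopologicalSpace Y] [ChartedSpace (Cm p) Y] (f : X → Y) (H : Set X) : Set X :=
  {x | x ∈ H ∧ ¬ ∃ g : Fin 2 → X → ℂ, (∀ a, HolAt (Cm n) (g a) x) ∧
    (∀ᶠ z in 𝓝 x, z ∈ H → ∀ a, g a z = 0) ∧
    ∀ (α : Cm p) (c : Fin 2 → ℂ), ∃ ξ : Cm n,
      md n p f x ξ = α ∧
      ∀ a, dif (Cm n) (g a) x ξ = c a}

theorem sthin_critSet [CompactSpace X] {f : X → Y}
    (hf : ContMDiff 𝓘(ℂ, Cm n) 𝓘(ℂ, Cm p) ω f) {H : Set X} (hH : IsClosed H)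
    (hHg : ∀ x ∈ H, ∃ g : Fin 2 → X → ℂ,
      (∀ a, HolAt (Cm n) (g a) x) ∧
      (Function.Surjective fun (ξ : Cm n) (a : Fin 2) => dif (Cm n) (g a) x ξ) ∧
      ∀ᶠ z in 𝓝 x, z ∈ H → ∀ a, g a z = 0) : SThin (Cm p) (f '' critSet n p f H) := by
  refine sthin_of_compact fun x => ?_
  by_cases hx : x ∈ H
  swap
  · refine ⟨Hᶜ, hH.isOpen_compl.mem_nhds hx, SThin.empty.mono ?_⟩
    rintro _ ⟨z, ⟨hz, hz'⟩, rfl⟩
    exact absurd hz.1 hz'
  obtain ⟨g, hg, hgs, hgH⟩ := hHg x hx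
  set φ := chartAt (Cm n) x with hφ
  have hφx : φ.symm (φ x) = x := φ.left_inv (mem_chart_source _ _)
  have hφt : φ x ∈ φ.target := φ.map_source (mem_chart_source _ _)
  set G : Cm n → Cm 2 := fun v a => g a (φ.symm v) with hG
  have hGa : AnalyticAt ℂ G (φ x) :=
    analyticAt_pi_iff.2 fun a => analytic_symm hφt (by rw [← hφ, hφx]; exact hg a)
  have hGd : ∀ v ∈ φ.target, (∀ a, HolAt (Cm n) (g a) (φ.symm v)) → ∀ ξ a,
      fderiv ℂ G v ξ a = dif (Cm n) (g a) (φ.symm v)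
        (md n n φ.symm v ξ) := by
    intro v hv hgv ξ a
    have h1 : ∀ a, DifferentiableAt ℂ (fun v => g a (φ.symm v)) v := fun a =>
      (analytic_symm hv (hgv a)).differentiableAt
    have h2 : HasFDerivAt G (ContinuousLinearMap.pi fun a => fderiv ℂ (fun v => g a (φ.symm v)) v)
        v := hasFDerivAt_pi.2 fun a => (h1 a).hasFDerivAt
    rw [h2.fderiv]
    exact fderiv_symm hv (hgv a) ξ
  have hGs : Function.Surjective (fderiv ℂ G (φ x)) := by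
    intro c
    obtain ⟨ξ, hξ⟩ := hgs c
    obtain ⟨η, hη⟩ := (mdifferentiable_chart (I := 𝓘(ℂ, Cm n)) x).symm.mfderiv_surjective
      (by simpa using hφt) ξ
    refine ⟨(η : Cm n), ?_⟩
    funext a
    have h1 := congrFun hξ a
    have h2 := hGd _ hφt (by rw [hφx]; exact hg) (η : Cm n) a
    have h3 : md n n φ.symm (φ x) (η : Cm n) = ξ := hη
    rw [h3, hφx] at h2
    exact h2.trans h1
  have hsc : Tendsto φ.symm (𝓝 (φ x)) (𝓝 x) := by
    have := (φ.continuousAt_symm hφt).tendsto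
    rwa [hφx] at this
  have hev : ∀ᶠ v in 𝓝 (φ x), v ∈ dom n p f x ∧ AnalyticAt ℂ G v ∧
      Function.Surjective (fderiv ℂ G v) ∧ (∀ a, HolAt (Cm n) (g a) (φ.symm v)) ∧
      ∀ᶠ z in 𝓝 (φ.symm v), z ∈ H → ∀ a, g a z = 0 := by
    refine ((isOpen_dom hf x).eventually_mem (mem_dom f x)).and (hGa.eventually_analyticAt.and
      ((hGa.fderiv.continuousAt.eventually (H737.Gen.eventually_surj hGs)).and
      ((hsc.eventually (eventually_all.2 fun a => holAt_eventually (hg a))).and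
      (hsc.eventually (eventually_eventually_nhds.2 hgH)))))
  obtain ⟨W, hW, hWo, hxW⟩ := _root_.eventually_nhds_iff.1 hev
  refine sthin_local hf x (hWo.mem_nhds hxW)
    (core_indep (F := loc n p f x) (G := G) hWo (fun z hz => analytic_loc hf x z (hW z hz).1)
      (fun z hz => (hW z hz).2.1) (fun z hz => (hW z hz).2.2.1)) ?_
  intro v hv hvd hvS
  obtain ⟨-, -, -, h1, h2⟩ := hW v hv
  refine ⟨funext fun a => h2.self_of_nhds hvS.1 a, fun hs => hvS.2 ⟨g, h1, h2, ?_⟩⟩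
  intro α c
  obtain ⟨ξ, hξ⟩ := hs ((mfderiv 𝓘(ℂ, Cm p) 𝓘(ℂ, Cm p) (chartAt (Cm p) (f x))
    (f (φ.symm v)) : Cm p →L[ℂ] Cm p) α, c)
  have h3 := congrArg Prod.fst hξ
  have h4 := congrArg Prod.snd hξ
  simp only at h3 h4
  refine ⟨md n n φ.symm v ξ, ?_, fun a => ?_⟩
  · rw [hasMFDerivAt_loc hf x hvd] at h3
    exact (mdifferentiable_chart (I := 𝓘(ℂ, Cm p)) (f x)).mfderiv_injective hvd.2 h3
  · rw [← hGd v hvd.1 h1, h4]

end

/-- **KN0** -/
theorem genN' (p d : ℕ) (X Y : Type) [TopologicalSpace X] [T2Space X] [CompactSpace X]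
    [ChartedSpace (Cm (p + d)) X] [IsManifold 𝓘(ℂ, Cm (p + d)) ω X] [TopologicalSpace Y]
    [T2Space Y] [ChartedSpace (Cm p) Y] [IsManifold 𝓘(ℂ, Cm p) ω Y] (f : X → Y) (N : Set X)
    (hf : ContMDiff 𝓘(ℂ, Cm (p + d)) 𝓘(ℂ, Cm p) ω f) (hN : IsSmall2 (Cm (p + d)) N) :
    ∃ H : ℕ → Set Y, (∀ k, IsThinSet (Cm p) (H k)) ∧ ∀ y, (∀ k, y ∉ H k) →
      ∀ (F : Type) [TopologicalSpace F] [ChartedSpace (Cm d) F] (i : F → X),
        H511.Surf.IsFibre (Cm (p + d)) (Cm d) f y i → IsSmall2 (Cm d) (i ⁻¹' N) := by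
  obtain ⟨hNc, H, hH, hNH⟩ := hN
  have h1 : SThin (Cm p) (⋃ k, f '' critSet (p + d) p f (H k)) :=
    SThin.iUnion fun k => sthin_critSet hf (hH k).1 (hH k).2
  obtain ⟨T, hT, hsub⟩ := h1
  refine ⟨T, hT, ?_⟩
  intro y hy F _ _ i hi
  have hn : (ω : WithTop ℕ∞) ≠ 0 := by simp
  have hic : Continuous i := hi.hol.continuous
  refine ⟨hNc.preimage hic, fun k => i ⁻¹' (H k), fun k => ⟨(hH k).1.preimage hic, ?_⟩, ?_⟩
  · intro t ht
    have h2 : i t ∉ critSet (p + d) p f (H k) := by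
      intro hcon
      obtain ⟨m, hm⟩ := mem_iUnion.1 (hsub (mem_iUnion.2 ⟨k, i t, hcon, hi.fibre t⟩))
      exact hy m hm
    have h3 : ∃ g : Fin 2 → X → ℂ, (∀ a, HolAt (Cm (p + d)) (g a) (i t)) ∧
        (∀ᶠ z in 𝓝 (i t), z ∈ H k → ∀ a, g a z = 0) ∧
        ∀ (α : Cm p) (c : Fin 2 → ℂ), ∃ ξ : Cm (p + d),
          md (p + d) p f (i t) ξ = α ∧
          ∀ a, dif (Cm (p + d)) (g a) (i t) ξ = c a := by
      by_contra hcon
      exact h2 ⟨ht, hcon⟩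
    obtain ⟨g, hg, hgH, hgs⟩ := h3
    refine ⟨fun a z => g a (i z), fun a => ContMDiffAt.comp t (hg a) (hi.hol t), ?_, ?_⟩
    · -- `d (g ∘ i)` is surjective
      set L : Cm (p + d) →ₗ[ℂ] Cm p := (md (p + d) p f (i t) : Cm (p + d) →ₗ[ℂ] Cm p) with hL
      set M : Cm d →ₗ[ℂ] Cm (p + d) := (md d (p + d) i t : Cm d →ₗ[ℂ] Cm (p + d)) with hM
      have hLM : ∀ η, L (M η) = 0 := by
        intro η
        have h4 : mfderiv 𝓘(ℂ, Cm d) 𝓘(ℂ, Cm p) (fun s => f (i s)) t =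
            (mfderiv 𝓘(ℂ, Cm (p + d)) 𝓘(ℂ, Cm p) f (i t)).comp
              (mfderiv 𝓘(ℂ, Cm d) 𝓘(ℂ, Cm (p + d)) i t) :=
          mfderiv_comp t ((hf _).mdifferentiableAt hn) ((hi.hol t).mdifferentiableAt hn)
        have h5 : (fun s => f (i s)) = fun _ => y := funext hi.fibre
        have h6 : mfderiv 𝓘(ℂ, Cm d) 𝓘(ℂ, Cm p) (fun _ : F => y) t = 0 := mfderiv_const
        have h7 : md (p + d) p f (i t) (md d (p + d) i t η) =
            (mfderiv 𝓘(ℂ, Cm d) 𝓘(ℂ, Cm p) (fun s => f (i s)) t : Cm d →L[ℂ] Cm p) η := by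
          rw [h4]; rfl
        have h8 : (mfderiv 𝓘(ℂ, Cm d) 𝓘(ℂ, Cm p) (fun s => f (i s)) t : Cm d →L[ℂ] Cm p) = 0 := by
          rw [h5]; exact h6
        rw [h8] at h7
        exact h7
      have hMi : Function.Injective M := hi.immersion t
      have hLs : LinearMap.range L = ⊤ := LinearMap.range_eq_top.2 fun α => by
        obtain ⟨ξ, hξ, -⟩ := hgs α 0
        exact ⟨ξ, hξ⟩
      have hker : LinearMap.range M = LinearMap.ker L := by
        apply Submodule.eq_of_le_of_finrank_eq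
        · rintro _ ⟨η, rfl⟩
          exact hLM η
        · have h8 := LinearMap.finrank_range_add_finrank_ker L
          rw [hLs, finrank_top] at h8
          have h9 := LinearMap.finrank_range_of_inj hMi
          simp only [Module.finrank_fintype_fun_eq_card, Fintype.card_fin] at h8 h9
          omega
      intro c
      obtain ⟨ξ, hξ0, hξ⟩ := hgs 0 c
      have h10 : ξ ∈ LinearMap.range M := by
        rw [hker]
        exact hξ0
      obtain ⟨η, hη⟩ := h10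
      refine ⟨η, ?_⟩
      funext a
      have h11 : mfderiv 𝓘(ℂ, Cm d) 𝓘(ℂ, ℂ) (fun s => g a (i s)) t =
          (mfderiv 𝓘(ℂ, Cm (p + d)) 𝓘(ℂ, ℂ) (g a) (i t)).comp
            (mfderiv 𝓘(ℂ, Cm d) 𝓘(ℂ, Cm (p + d)) i t) :=
        mfderiv_comp t (ContMDiffAt.mdifferentiableAt (hg a) hn)
          ((hi.hol t).mdifferentiableAt hn)
      show (mfderiv 𝓘(ℂ, Cm d) 𝓘(ℂ, ℂ) (fun s => g a (i s)) t : Cm d →L[ℂ] ℂ) η = c a
      rw [h11, ← hξ a, ← hη]
      rfl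
    · exact hic.continuousAt.eventually hgH
  · intro t ht
    obtain ⟨k, hk⟩ := mem_iUnion.1 (hNH ht)
    exact mem_iUnion.2 ⟨k, hk⟩

end Vale.Agent.P281.H383.KN
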