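import Vale.Agent.P281.H383.KN.GenN
import Vale.Agent.P281.H737.Gen.Exc

/-! P281, project T-KN, block KN0' (helper383): images of thin sets by modifications. -/

open Set Filter Metric Vale.Agent.P281 Vale.Agent.P281.J Vale.Agent.P281.H713
open Vale.Agent.P281.H64.Thin (IsThinSet)
open Vale.Agent.P281.H64 (Cm)
open Vale.Agent.P281.H64.Gen (IsSmallSet IsSmall2 excSet)
open Vale.Agent.P281.H150.Gen
open scoped Topology ContDiff Manifold

set_option linter.unusedSectionVars false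

noncomputable section

namespace Vale.Agent.P281.H383.KN

section

variable {n : ℕ} {X : Type} [TopologicalSpace X] [ChartedSpace (Cm n) X]

theorem sthin_of_small2 {N : Set X} (hN : IsSmall2 (Cm n) N) : SThin (Cm n) N := by
  obtain ⟨-, H, hH, hNH⟩ := hN
  refine ⟨H, fun k => thin_of_isClosed (hH k).1 fun y hy => ?_, hNH⟩
  obtain ⟨g, hg, hs, hev⟩ := (hH k).2 y hy
  refine ⟨g 0, hg 0, fun h0 => ?_, hev.mono fun z hz hzH => hz hzH 0⟩
  obtain ⟨ξ, hξ⟩ := hs (fun _ => 1)
  have h3 : dif (Cm n) (g 0) y ξ = 1 := congrFun hξ 0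
  have h4 : g 0 =ᶠ[𝓝 y] fun _ => (0 : ℂ) := h0
  have h5 : dif (Cm n) (g 0) y = 0 := by
    unfold dif
    rw [h4.mfderiv_eq]
    exact mfderiv_const
  rw [h5] at h3
  exact zero_ne_one h3

end

/-- The image of a thin set by a holomorphic map between manifolds of the same dimension. -/
theorem sthin_image_thin {p : ℕ} {X Y : Type} [TopologicalSpace X] [T2Space X] [CompactSpace X]
    [ChartedSpace (Cm p) X] [IsManifold 𝓘(ℂ, Cm p) ω X] [TopologicalSpace Y] [T2Space Y]
    [ChartedSpace (Cm p) Y] [IsManifold 𝓘(ℂ, Cm p) ω Y] {f : X → Y}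
    (hf : ContMDiff 𝓘(ℂ, Cm p) 𝓘(ℂ, Cm p) ω f) {H : Set X} (hH : IsThinSet (Cm p) H) :
    SThin (Cm p) (f '' H) := by
  refine sthin_of_compact fun x => ?_
  obtain ⟨g, hg, hne, hgH⟩ := hH.2 x
  set φ := chartAt (Cm p) x with hφ
  have hφx : φ.symm (φ x) = x := φ.left_inv (mem_chart_source _ _)
  have hφt : φ x ∈ φ.target := φ.map_source (mem_chart_source _ _)
  have hGa : AnalyticAt ℂ (fun v => g (φ.symm v)) (φ x) :=
    analytic_symm hφt (by rw [← hφ, hφx]; exact hg)
  have hφc : Tendsto φ (𝓝 x) (𝓝 (φ x)) := φ.continuousAt (mem_chart_source _ _)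
  have hsc : Tendsto φ.symm (𝓝 (φ x)) (𝓝 x) := by
    have := (φ.continuousAt_symm hφt).tendsto
    rwa [hφx] at this
  have hGne : ¬ ∀ᶠ v in 𝓝 (φ x), g (φ.symm v) = 0 := by
    intro hcon
    apply hne
    filter_upwards [hφc.eventually hcon, φ.open_source.eventually_mem (mem_chart_source _ _)]
      with z hz hzs
    rwa [φ.left_inv hzs] at hz
  obtain ⟨ρ, hρ, hball⟩ := Metric.eventually_nhds_iff_ball.1
    (((isOpen_dom hf x).eventually_mem (mem_dom f x)).and (hGa.eventually_analyticAt.and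
      (hsc.eventually (eventually_eventually_nhds.2 hgH))))
  refine sthin_local hf x (ball_mem_nhds _ hρ) (core_hyp (F := loc p p f x)
    (g := fun v => g (φ.symm v)) (by simp) isOpen_ball
    (fun z hz => analytic_loc hf x z (hball z hz).1) (fun z hz => (hball z hz).2.1) ?_) ?_
  · intro z hz hcon
    apply hGne
    have h1 : AnalyticOnNhd ℂ (fun v => g (φ.symm v)) (ball (φ x) ρ) :=
      fun w hw => (hball w hw).2.1
    have h2 := h1.eqOn_zero_of_preconnected_of_eventuallyEq_zero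
      (convex_ball _ ρ).isPreconnected hz hcon
    filter_upwards [ball_mem_nhds (φ x) hρ] with w hw using h2 hw
  · intro v hv hvd hvH
    exact (hball v hv).2.2.self_of_nhds hvH

/-- **KN0'** -/
theorem imgN' (p : ℕ) (Y Y₁ : Type) [TopologicalSpace Y] [T2Space Y] [ChartedSpace (Cm p) Y]
    [IsManifold 𝓘(ℂ, Cm p) ω Y] [TopologicalSpace Y₁] [T2Space Y₁] [CompactSpace Y₁]
    [ChartedSpace (Cm p) Y₁] [IsManifold 𝓘(ℂ, Cm p) ω Y₁] (v : Y₁ → Y) (H₁ : ℕ → Set Y₁)
    (hv : TZ.S.IsModif (Cm p) v) (hH : ∀ k, IsThinSet (Cm p) (H₁ k)) :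
    ∃ H : ℕ → Set Y, (∀ k, IsThinSet (Cm p) (H k)) ∧
      v '' (excSet (Cm p) v ∪ ⋃ k, H₁ k) ⊆ ⋃ k, H k := by
  show SThin (Cm p) _
  rw [image_union, image_iUnion]
  refine SThin.union ?_ (SThin.iUnion fun k => sthin_image_thin hv.2.1 (hH k))
  have hsurj : range v = univ := by
    obtain ⟨-, hsm, hprop, U, hUo, hUd, -, hUu⟩ := hv
    have h1 : IsClosed (range v) := by
      rw [← image_univ]
      exact (isCompact_univ.image hsm.continuous).isClosed
    have h2 : U ⊆ range v := fun y hy => by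
      obtain ⟨z, hz, -⟩ := hUu y hy
      exact ⟨z, hz⟩
    exact univ_subset_iff.1 (hUd.closure_eq ▸ closure_minimal h2 h1)
  have hcomp : CompactSpace Y := ⟨by
    rw [← hsurj, ← image_univ]
    exact isCompact_univ.image hv.2.1.continuous⟩
  exact sthin_of_small2 (H737.Gen.exc p Y Y₁ v hv)

end Vale.Agent.P281.H383.KN
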