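import Vale.Agent.P281.H150.Gen.Img

/-! P281, project T-KN, blocks KN0 and KN0' (helper383): images in charts. -/

open Set Filter Metric Vale.Agent.P281 Vale.Agent.P281.J Vale.Agent.P281.H713
open Vale.Agent.P281.H64.Thin (IsThinSet)
open Vale.Agent.P281.H64 (Cm)
open Vale.Agent.P281.H150.Gen
open scoped Topology ContDiff Manifold

set_option linter.unusedSectionVars false

noncomputable section

namespace Vale.Agent.P281.H383.KN

section

variable {n p : ℕ} {X Y : Type} [TopologicalSpace X] [T2Space X] [ChartedSpace (Cm n) X]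
  [IsManifold 𝓘(ℂ, Cm n) ω X] [TopologicalSpace Y] [T2Space Y] [ChartedSpace (Cm p) Y]
  [IsManifold 𝓘(ℂ, Cm p) ω Y]

/-- The map `f` in the charts at `x` and `f x`. -/
def loc (n p : ℕ) {X Y : Type} [TopologicalSpace X] [ChartedSpace (Cm n) X] [TopologicalSpace Y]
    [ChartedSpace (Cm p) Y] (f : X → Y) (x : X) : Cm n → Cm p :=
  fun v => chartAt (Cm p) (f x) (f ((chartAt (Cm n) x).symm v))

/-- The domain of `loc`. -/
def dom (n p : ℕ) {X Y : Type} [TopologicalSpace X] [ChartedSpace (Cm n) X] [TopologicalSpace Y]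
    [ChartedSpace (Cm p) Y] (f : X → Y) (x : X) : Set (Cm n) :=
  (chartAt (Cm n) x).target ∩ (chartAt (Cm n) x).symm ⁻¹' (f ⁻¹' (chartAt (Cm p) (f x)).source)

theorem isOpen_dom {f : X → Y} (hf : ContMDiff 𝓘(ℂ, Cm n) 𝓘(ℂ, Cm p) ω f) (x : X) :
    IsOpen (dom n p f x) := by
  refine ContinuousOn.isOpen_inter_preimage (chartAt (Cm n) x).continuousOn_symm
    (chartAt (Cm n) x).open_target ?_
  exact (chartAt (Cm p) (f x)).open_source.preimage hf.continuous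

theorem mem_dom (f : X → Y) (x : X) : chartAt (Cm n) x x ∈ dom n p f x := by
  refine ⟨(chartAt (Cm n) x).map_source (mem_chart_source _ _), ?_⟩
  show f ((chartAt (Cm n) x).symm (chartAt (Cm n) x x)) ∈ (chartAt (Cm p) (f x)).source
  rw [(chartAt (Cm n) x).left_inv (mem_chart_source _ _)]
  exact mem_chart_source (Cm p) (f x)

theorem analytic_loc {f : X → Y} (hf : ContMDiff 𝓘(ℂ, Cm n) 𝓘(ℂ, Cm p) ω f) (x : X) :
    ∀ v ∈ dom n p f x, AnalyticAt ℂ (loc n p f x) v := by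
  intro v hv
  have h1 : ContMDiffAt 𝓘(ℂ, Cm n) 𝓘(ℂ, Cm p) ω (loc n p f x) v :=
    ContMDiffAt.comp v (holAt_chart hv.2) (ContMDiffAt.comp v (hf _) (holAt_symm hv.1))
  exact (contMDiffAt_iff_contDiffAt.1 h1).analyticAt

theorem hasMFDerivAt_loc {f : X → Y} (hf : ContMDiff 𝓘(ℂ, Cm n) 𝓘(ℂ, Cm p) ω f) (x : X) {v : Cm n}
    (hv : v ∈ dom n p f x) : fderiv ℂ (loc n p f x) v =
      (mfderiv 𝓘(ℂ, Cm p) 𝓘(ℂ, Cm p) (chartAt (Cm p) (f x))
        (f ((chartAt (Cm n) x).symm v))).comp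
      ((mfderiv 𝓘(ℂ, Cm n) 𝓘(ℂ, Cm p) f ((chartAt (Cm n) x).symm v)).comp
        (mfderiv 𝓘(ℂ, Cm n) 𝓘(ℂ, Cm n) (chartAt (Cm n) x).symm v)) := by
  have hn : (ω : WithTop ℕ∞) ≠ 0 := by simp
  have h1 : ContMDiffAt 𝓘(ℂ, Cm n) 𝓘(ℂ, Cm n) ω (chartAt (Cm n) x).symm v := holAt_symm hv.1
  have h2 : ContMDiffAt 𝓘(ℂ, Cm p) 𝓘(ℂ, Cm p) ω (chartAt (Cm p) (f x))
    (f ((chartAt (Cm n) x).symm v)) := holAt_chart hv.2
  have h3 : mfderiv 𝓘(ℂ, Cm n) 𝓘(ℂ, Cm p) (fun v => f ((chartAt (Cm n) x).symm v)) v =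
      (mfderiv 𝓘(ℂ, Cm n) 𝓘(ℂ, Cm p) f ((chartAt (Cm n) x).symm v)).comp
        (mfderiv 𝓘(ℂ, Cm n) 𝓘(ℂ, Cm n) (chartAt (Cm n) x).symm v) :=
    mfderiv_comp v ((hf _).mdifferentiableAt hn) (h1.mdifferentiableAt hn)
  have h4 : ContMDiffAt 𝓘(ℂ, Cm n) 𝓘(ℂ, Cm p) ω (fun v => f ((chartAt (Cm n) x).symm v)) v :=
    ContMDiffAt.comp v (hf _) h1
  have h5 : mfderiv 𝓘(ℂ, Cm n) 𝓘(ℂ, Cm p) (loc n p f x) v =
      (mfderiv 𝓘(ℂ, Cm p) 𝓘(ℂ, Cm p) (chartAt (Cm p) (f x))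
        (f ((chartAt (Cm n) x).symm v))).comp
        (mfderiv 𝓘(ℂ, Cm n) 𝓘(ℂ, Cm p) (fun v => f ((chartAt (Cm n) x).symm v)) v) :=
    mfderiv_comp v (h2.mdifferentiableAt hn) (h4.mdifferentiableAt hn)
  rw [← mfderiv_eq_fderiv, h5, h3]

/-- From a chart to the manifold. -/
theorem sthin_local {f : X → Y} (hf : ContMDiff 𝓘(ℂ, Cm n) 𝓘(ℂ, Cm p) ω f) (x : X) {S : Set X}
    {T W : Set (Cm n)} (hW : W ∈ 𝓝 (chartAt (Cm n) x x))
    (hS : SThin (Cm p) (loc n p f x '' (T ∩ W)))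
    (hST : ∀ v ∈ W, v ∈ dom n p f x → (chartAt (Cm n) x).symm v ∈ S → v ∈ T) :
    ∃ N ∈ 𝓝 x, SThin (Cm p) (f '' (S ∩ N)) := by
  set φ := chartAt (Cm n) x with hφx
  set ψ := chartAt (Cm p) (f x) with hψy
  obtain ⟨H, hH, hcov⟩ := hS
  have hyt : ψ (f x) ∈ ψ.target := ψ.map_source (mem_chart_source _ _)
  obtain ⟨ρ, hρ, hρt⟩ := Metric.nhds_basis_closedBall.mem_iff.1 (ψ.open_target.mem_nhds hyt)
  have hφc : ContinuousAt φ x := φ.continuousAt (mem_chart_source _ _)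
  refine ⟨{x' | x' ∈ φ.source ∧ f x' ∈ ψ.source ∧ ψ (f x') ∈ closedBall (ψ (f x)) ρ ∧
    φ x' ∈ W}, ?_, ?_⟩
  · have h1 : ∀ᶠ x' in 𝓝 x, f x' ∈ ψ.source :=
      hf.continuous.continuousAt.eventually (ψ.open_source.eventually_mem (mem_chart_source _ _))
    have h2 : ContinuousAt (fun x' => ψ (f x')) x :=
      ContinuousAt.comp (g := ψ) (ψ.continuousAt (mem_chart_source _ _))
        hf.continuous.continuousAt
    exact (φ.open_source.eventually_mem (mem_chart_source _ _)).and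
      (h1.and ((h2.eventually (closedBall_mem_nhds _ hρ)).and (hφc.eventually hW)))
  · refine ⟨fun k => ψ.symm '' (H k ∩ closedBall (ψ (f x)) ρ), fun k =>
      thin_chart (f x) (isCompact_closedBall _ _) hρt (hH k), ?_⟩
    rintro _ ⟨x', ⟨hx'A, hx'1, hx'2, hx'3, hx'4⟩, rfl⟩
    have h1 : φ.symm (φ x') = x' := φ.left_inv hx'1
    have h3 : φ x' ∈ dom n p f x := ⟨φ.map_source hx'1, by
      show f (φ.symm (φ x')) ∈ ψ.source
      rw [h1]; exact hx'2⟩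
    have h2 : ψ (f x') ∈ loc n p f x '' (T ∩ W) := by
      refine ⟨φ x', ⟨hST _ hx'4 h3 (by rw [h1]; exact hx'A), hx'4⟩, ?_⟩
      show ψ (f (φ.symm (φ x'))) = ψ (f x')
      rw [h1]
    obtain ⟨k, hk⟩ := mem_iUnion.1 (hcov h2)
    exact mem_iUnion.2 ⟨k, ψ (f x'), ⟨hk, hx'3⟩, ψ.left_inv hx'2⟩

end

theorem sthin_of_compact {E' : Type} [NormedAddCommGroup E'] [NormedSpace ℂ E'] {X Y : Type}
    [TopologicalSpace X] [CompactSpace X] [TopologicalSpace Y] [ChartedSpace E' Y] {f : X → Y}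
    {S : Set X} (h : ∀ x : X, ∃ N ∈ 𝓝 x, SThin E' (f '' (S ∩ N))) : SThin E' (f '' S) := by
  choose N hN hS using h
  obtain ⟨t, ht⟩ := CompactSpace.elim_nhds_subcover N hN
  refine (SThin.iUnion (S := fun x : t => f '' (S ∩ N x)) fun x => hS x).mono ?_
  rintro _ ⟨x, hx, rfl⟩
  have h1 : x ∈ ⋃ y ∈ t, N y := by rw [ht]; trivial
  obtain ⟨y, hy, hxy⟩ := mem_iUnion₂.1 h1
  exact mem_iUnion.2 ⟨⟨y, hy⟩, x, ⟨hx, hxy⟩, rfl⟩

/-- The points of the analytic set `{G = 0}` where `F` and `G` have no independent differentials. -/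
theorem core_indep {p q : ℕ} {V : Type} [NormedAddCommGroup V] [NormedSpace ℂ V]
    [FiniteDimensional ℂ V] {W : Set V} {F : V → Cm p} {G : V → Cm q} (hW : IsOpen W)
    (hF : ∀ z ∈ W, AnalyticAt ℂ F z) (hG : ∀ z ∈ W, AnalyticAt ℂ G z)
    (hGs : ∀ z ∈ W, Function.Surjective (fderiv ℂ G z)) :
    SThin (Cm p) (F '' ({z | G z = 0 ∧
      ¬ Function.Surjective (fun ξ => (fderiv ℂ F z ξ, fderiv ℂ G z ξ))} ∩ W)) := by
  let e : (Cm p × Cm q) ≃L[ℂ] Cm (p + q) :=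
    ContinuousLinearEquiv.ofFinrankEq (by simp)
  have hFG : ∀ z ∈ W, AnalyticAt ℂ (fun z => e (F z, G z)) z := fun z hz =>
    ((e : (Cm p × Cm q) →L[ℂ] Cm (p + q)).analyticAt _).fun_comp ((hF z hz).prod (hG z hz))
  have hd : ∀ z ∈ W, fderiv ℂ (fun z => e (F z, G z)) z =
      (e : (Cm p × Cm q) →L[ℂ] Cm (p + q)).comp ((fderiv ℂ F z).prod (fderiv ℂ G z)) := by
    intro z hz
    exact ((e : (Cm p × Cm q) →L[ℂ] Cm (p + q)).hasFDerivAt.comp z
      ((hF z hz).differentiableAt.hasFDerivAt.prodMk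
        (hG z hz).differentiableAt.hasFDerivAt)).fderiv
  have hiff : ∀ z ∈ W, (Function.Surjective (fderiv ℂ (fun z => e (F z, G z)) z) ↔
      Function.Surjective (fun ξ => (fderiv ℂ F z ξ, fderiv ℂ G z ξ))) := by
    intro z hz
    rw [hd z hz]
    show Function.Surjective (e ∘ (fun ξ => (fderiv ℂ F z ξ, fderiv ℂ G z ξ))) ↔ _
    exact ⟨fun h => by
      have := e.symm.surjective.comp h
      rwa [← Function.comp_assoc, e.symm_comp_self, Function.id_comp] at this,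
      fun h => e.surjective.comp h⟩
  refine core p _ V rfl W _ F hW hF ?_ ?_
  · intro z hz
    obtain ⟨U, ι, h, hU, hzU, hh, hAU⟩ := anIn_crit hW hFG z hz
    refine ⟨U ∩ W, ι ⊕ Fin q, Sum.elim h (fun i z => G z i), hU.inter hW, ⟨hzU, hz⟩, ?_, ?_⟩
    · rintro (i | i) w hw
      · exact hh i w hw.1
      · exact ((ContinuousLinearMap.proj (R := ℂ) (φ := fun _ : Fin q => ℂ) i).analyticAt
          _).fun_comp (hG w hw.2)
    · intro w hw
      have h1 := hAU w hw.1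
      simp only [mem_ofPred_eq] at h1 ⊢
      rw [hiff w hw.2] at h1
      rw [h1]
      constructor
      · rintro ⟨h2, h3⟩ (i | i)
        · exact h3 i
        · show G w i = 0
          rw [h2]; rfl
      · intro h2
        refine ⟨?_, fun i => h2 (Sum.inl i)⟩
        funext i
        exact h2 (Sum.inr i)
  · intro V' _ _ _ W' φ hW' hφ x hx hs
    have hz := (hφ x hx).2.2
    apply (hφ x hx).2.1.2
    have h1 : fderiv ℂ (fun v => F (φ v)) x = (fderiv ℂ F (φ x)).comp (fderiv ℂ φ x) :=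
      ((hF _ hz).differentiableAt.hasFDerivAt.comp x
        (hφ x hx).1.differentiableAt.hasFDerivAt).fderiv
    have h2 : fderiv ℂ (fun v => G (φ v)) x = (fderiv ℂ G (φ x)).comp (fderiv ℂ φ x) :=
      ((hG _ hz).differentiableAt.hasFDerivAt.comp x
        (hφ x hx).1.differentiableAt.hasFDerivAt).fderiv
    have h3 : (fun v => G (φ v)) =ᶠ[𝓝 x] fun _ => 0 := by
      filter_upwards [hW'.mem_nhds hx] with y hy using (hφ y hy).2.1.1
    have h4 : fderiv ℂ (fun v => G (φ v)) x = 0 := by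
      rw [h3.fderiv_eq, fderiv_fun_const]; rfl
    rw [h4] at h2
    rw [h1] at hs
    rintro ⟨a, b⟩
    obtain ⟨ξ, hξ⟩ := hGs _ hz b
    obtain ⟨η, hη⟩ := hs (a - fderiv ℂ F (φ x) ξ)
    refine ⟨ξ + fderiv ℂ φ x η, ?_⟩
    have h5 : fderiv ℂ G (φ x) (fderiv ℂ φ x η) = 0 := by
      have := congrArg (fun L : V' →L[ℂ] Cm q => L η) h2
      simpa using this.symm
    have h6 : fderiv ℂ F (φ x) (fderiv ℂ φ x η) = a - fderiv ℂ F (φ x) ξ := hη
    simp only [map_add, h5, h6, hξ, add_zero, add_sub_cancel]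

/-- The image of a hypersurface by a map between spaces of the same dimension. -/
theorem core_hyp {p : ℕ} {V : Type} [NormedAddCommGroup V] [NormedSpace ℂ V]
    [FiniteDimensional ℂ V] (hV : Module.finrank ℂ V = p) {W : Set V} {F : V → Cm p} {g : V → ℂ}
    (hW : IsOpen W) (hF : ∀ z ∈ W, AnalyticAt ℂ F z) (hg : ∀ z ∈ W, AnalyticAt ℂ g z)
    (hne : ∀ z ∈ W, ¬ ∀ᶠ y in 𝓝 z, g y = 0) :
    SThin (Cm p) (F '' ({z | g z = 0} ∩ W)) := by
  refine core p _ V rfl W _ F hW hF ?_ ?_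
  · intro z hz
    refine ⟨W, Unit, fun _ => g, hW, hz, fun _ w hw => hg w hw, ?_⟩
    intro w hw
    exact ⟨fun h _ => h, fun h => h ()⟩
  · intro V' _ _ _ W' φ hW' hφ x hx hs
    have : CompleteSpace V := FiniteDimensional.complete ℂ V
    have : CompleteSpace V' := FiniteDimensional.complete ℂ V'
    have hz := (hφ x hx).2.2
    have h1 : fderiv ℂ (fun v => F (φ v)) x = (fderiv ℂ F (φ x)).comp (fderiv ℂ φ x) :=
      ((hF _ hz).differentiableAt.hasFDerivAt.comp x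
        (hφ x hx).1.differentiableAt.hasFDerivAt).fderiv
    rw [h1] at hs
    have h2 : Function.Surjective (fderiv ℂ F (φ x)) := Function.Surjective.of_comp hs
    have h3 : Function.Injective (fderiv ℂ F (φ x)) :=
      (LinearMap.injective_iff_surjective_of_finrank_eq_finrank
        (f := (fderiv ℂ F (φ x) : V →ₗ[ℂ] Cm p)) (by simp [hV])).2 h2
    have h4 : Function.Surjective (fderiv ℂ φ x) := by
      intro y
      obtain ⟨ξ, hξ⟩ := hs (fderiv ℂ F (φ x) y)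
      exact ⟨ξ, h3 hξ⟩
    have hn : (ω : WithTop ℕ∞) ≠ 0 := by simp
    have hstr : HasStrictFDerivAt φ (fderiv ℂ φ x) x :=
      (hφ x hx).1.contDiffAt.hasStrictFDerivAt hn
    have hmap := hstr.map_nhds_eq_of_surj (LinearMap.range_eq_top.2 h4)
    apply hne _ hz
    rw [← hmap]
    show ∀ᶠ y in 𝓝 x, g (φ y) = 0
    filter_upwards [hW'.mem_nhds hx] with y hy using (hφ y hy).2.1

end Vale.Agent.P281.H383.KN
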